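import Vale.Agent.P144S.Defs
import Vale.Agent.P144Z.St.Plus

/-!
From the families of blocks to all families.
-/

namespace Vale.Agent.P144S.F

open Filter Topology Metric Vale.Agent.P144 Vale.Agent.P144Q
open Vale.Agent.P144.H170 (Pt pt nf ev_nf)

theorem sP_fin (J : ℝ) (P A : Finset Site) : sP J P A.val =
    gibbs J 0 Vk (Kc / J) (some bcp) P fun σ => ∏ x ∈ A, sp (σ x) := by
  rw [P144Z.St.gibbs_V0]
  rfl

/-- The spin correlations decrease with the volume. -/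
theorem sP_anti {J : ℝ} (hJ : 0 < J) {P Q : Finset Site} (h : P ⊆ Q) {R : Multiset Site}
    (hR : R.Nodup) (hP : ∀ x ∈ R, x ∈ P) : sP J Q R ≤ sP J P R := by
  have e : R = (⟨R, hR⟩ : Finset Site).val := rfl
  rw [e, sP_fin, sP_fin]
  exact H436.gibbs_le_plus (div_pos H436.kc_pos hJ).le hJ.le le_rfl _ h fun x hx => hP x hx

theorem fl_ne {z w : ℂ} (h : z ≠ w) : ∀ᶠ a in 𝓝[>] (0 : ℝ), fl a z ≠ fl a w := by
  have h1 := ((AL.flt z).sub (AL.flt w)).eventually_ne (sub_ne_zero.2 h)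
  filter_upwards [h1] with a ha e
  exact ha (by rw [e, sub_self])

theorem nodup_ev (X : Finset ℂ) : ∀ᶠ a in 𝓝[>] (0 : ℝ), (X.val.map (fl a)).Nodup := by
  have : ∀ᶠ a in 𝓝[>] (0 : ℝ), ∀ z ∈ X, ∀ w ∈ X, z ≠ w → fl a z ≠ fl a w := by
    refine (Finset.eventually_all _).2 fun z _ => (Finset.eventually_all _).2 fun w _ => ?_
    by_cases h : z = w
    · simp [h]
    · exact (fl_ne h).mono fun a ha _ => ha
  filter_upwards [this] with a ha
  refine Multiset.Nodup.map_on (fun z hz w hw e => ?_) X.nodup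
  by_contra h
  exact ha z hz w hw h e

theorem mem_ev {D : Set ℂ} {P : ℝ → Finset Site} (hP : Fam0 D P) {X : Finset ℂ}
    (hX : ∀ z ∈ X, z ∈ D) : ∀ᶠ a in 𝓝[>] (0 : ℝ), ∀ x ∈ X.val.map (fl a), x ∈ P a := by
  have : ∀ᶠ a in 𝓝[>] (0 : ℝ), ∀ z ∈ X, fl a z ∈ P a :=
    (Finset.eventually_all _).2 fun z hz => hP.mem AL.idt (hX z hz) (AL.flt z)
  filter_upwards [this] with a ha x hx
  obtain ⟨z, hz, rfl⟩ := Multiset.mem_map.1 hx
  exact ha z hz

theorem GP_anti {J : ℝ} (hJ : 0 < J) {D : Set ℂ} {P Q : ℝ → Finset Site} (hP : Fam0 D P)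
    (h : ∀ᶠ a in 𝓝[>] (0 : ℝ), P a ⊆ Q a) {X : Finset ℂ} (hX : ∀ z ∈ X, z ∈ D) :
    ∀ᶠ a in 𝓝[>] (0 : ℝ), GP J Q X a ≤ GP J P X a := by
  filter_upwards [h, nodup_ev X, mem_ev hP hX, self_mem_nhdsWithin] with a h1 h2 h3 h4
  exact mul_le_mul_of_nonneg_left (sP_anti hJ h1 h2 h3) (Real.rpow_nonneg (le_of_lt h4) _)

open Classical in
/-- The family that agrees with `P` on `S` and with `Q` elsewhere. -/
noncomputable def mix (S : Set ℝ) (P Q : ℝ → Finset Site) (a : ℝ) : Finset Site :=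
  if a ∈ S then P a else Q a

theorem mix_ind {S : Set ℝ} {P Q : ℝ → Finset Site} {a : ℝ} (φ : Finset Site → Prop)
    (h1 : φ (P a)) (h2 : φ (Q a)) : φ (mix S P Q a) := by
  unfold mix
  split_ifs <;> assumption

theorem fam0_mix {D : Set ℂ} (S : Set ℝ) {P Q : ℝ → Finset Site} (g : Finset Site → Finset Site)
    (hP : Fam0 D fun a => g (P a)) (hQ : Fam0 D fun a => g (Q a)) :
    Fam0 D fun a => g (mix S P Q a) where
  inn := fun z hz => by
    filter_upwards [hP.inn z hz, hQ.inn z hz] with kx h1 h2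
    exact mix_ind (fun T => kx.2 ∈ g T) h1 h2
  sub := fun ε hε => by
    filter_upwards [hP.sub ε hε, hQ.sub ε hε] with a h1 h2
    exact mix_ind (fun T => ∀ x ∈ g T, ∃ z ∈ D, ‖pt a x - z‖ ≤ ε) h1 h2
  kc := by
    filter_upwards [hP.kc, hQ.kc] with a h1 h2
    exact mix_ind (fun T => P144G.KC (g T)) h1 h2

theorem famP_mix {D : Set ℂ} (S : Set ℝ) {P Q : ℝ → Finset Site} (hP : FamP D P)
    (hQ : FamP D Q) : FamP D (mix S P Q) := by
  refine ⟨fam0_mix S id hP.1 hQ.1, ?_⟩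
  filter_upwards [hP.2, hQ.2] with a h1 h2
  exact mix_ind NC h1 h2

theorem famB_mix {D : Set ℂ} (S : Set ℝ) {P Q : ℝ → Finset Site} (hP : FamB D P)
    (hQ : FamB D Q) : FamB D (mix S P Q) :=
  ⟨famP_mix S hP.1 hQ.1, fun a => mix_ind Blk (hP.2.1 a) (hQ.2.1 a),
    fam0_mix S Vx hP.2.2 hQ.2.2⟩

theorem freq_rat : (∃ᶠ a in 𝓝[>] (0 : ℝ), Irrational a) ∧
    ∃ᶠ a in 𝓝[>] (0 : ℝ), ¬ Irrational a := by
  constructor
  · intro h
    obtain ⟨u, hu, h⟩ := mem_nhdsGT_iff_exists_Ioo_subset.1 h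
    obtain ⟨x, hx, h1⟩ := exists_irrational_btwn (show (0 : ℝ) < u from hu)
    exact h h1 hx
  · intro h
    obtain ⟨u, hu, h⟩ := mem_nhdsGT_iff_exists_Ioo_subset.1 h
    obtain ⟨x, h1⟩ := exists_rat_btwn (show (0 : ℝ) < u from hu)
    exact h h1 (Rat.not_irrational x)

/-- Two functions with an interleaving that converges have the same limit. -/
theorem eq_of_mix {f g m : ℝ → ℝ} {x y z : ℝ} (hf : Tendsto f (𝓝[>] 0) (𝓝 x))
    (hg : Tendsto g (𝓝[>] 0) (𝓝 y)) (hm : Tendsto m (𝓝[>] 0) (𝓝 z))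
    (h1 : ∀ a, Irrational a → m a = f a) (h2 : ∀ a, ¬ Irrational a → m a = g a) : x = y :=
  (tendsto_nhds_unique_of_frequently_eq hf hm (freq_rat.1.mono fun a h => (h1 a h).symm)).trans
    (tendsto_nhds_unique_of_frequently_eq hm hg (freq_rat.2.mono h2))

theorem all (hS : SSand) : SAll := by
  intro J hJ D X ho hD hO hX ⟨P₀, hP₀⟩ h
  obtain ⟨Q, -, hQ, -, -⟩ := hS D P₀ ho hD hO hP₀
  obtain ⟨g, hg, hl⟩ := h Q hQ
  have key : ∀ P, FamB D P → Tendsto (GP J P X) (𝓝[>] 0) (𝓝 g) := fun P hP => by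
    obtain ⟨g', -, hl'⟩ := h P hP
    obtain ⟨g'', -, hl''⟩ := h _ (famB_mix {a | Irrational a} hP hQ)
    rwa [← eq_of_mix hl' hl hl'' (fun a ha => by unfold GP mix; rw [if_pos (show a ∈ {a | Irrational a} from ha)])
      fun a ha => by unfold GP mix; rw [if_neg (show a ∉ {a | Irrational a} from ha)]]
  refine ⟨g, hg, fun P hP => ?_⟩
  obtain ⟨P₁, P₂, h1, h2, h3⟩ := hS D P ho hD hO hP
  exact tendsto_of_tendsto_of_tendsto_of_le_of_le' (key P₂ h2) (key P₁ h1)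
    (GP_anti hJ hP.1 (h3.mono fun a h => h.2) hX) (GP_anti hJ h1.1.1 (h3.mono fun a h => h.1) hX)

end Vale.Agent.P144S.F
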