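import Vale.Agent.P144S.W.Basic
import Vale.Agent.P144S.F.All
import Vale.Agent.P144Q.BFin
import Vale.Agent.P144.H170.Glue

/-!
The mixed correlations for the plus boundary condition from the kernels and the normalisation.
-/

namespace Vale.Agent.P144S.F

open Filter Topology Finset Vale.Agent.P144 Vale.Agent.P144Q
open Vale.Agent.P144.AL (Cn cnr ep el fcs sps Pf flat cenK flat_cons fcs_cons sps_cons mem_cnr)
open Vale.Agent.P144.H170 (rM)

theorem ep4 (v w : Site) (i j : Fin 2) (h : v + dir i ≠ w + dir j) :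
    ep (ce v i false) (ce w j false) * ep (ce v i true) (ce w j false) *
      (ep (ce v i false) (ce w j true) * ep (ce v i true) (ce w j true)) = 1 := by
  obtain ⟨a, b⟩ := v
  obtain ⟨c, d⟩ := w
  unfold ep ce
  unfold dir at h ⊢
  by_cases hi : i = 0 <;> by_cases hj : j = 0 <;>
    simp only [hi, hj, if_true, if_false, Prod.mk_add_mk, add_zero, ne_eq, Prod.mk.injEq,
      Bool.false_eq_true] at h ⊢ <;>
    split_ifs <;> first | (exfalso; omega) | norm_num

theorem ce_cnr (v : Site) (j : Fin 2) (b : Bool) : (ce v j b).1 ∈ cnr (ce v j b).2 := by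
  unfold ce dir
  cases b <;> by_cases hj : j = 0 <;> simp [hj, mem_cnr, Prod.ext_iff]

theorem dir_ne (v : Site) (j : Fin 2) : v + dir j ≠ v := by
  unfold dir
  by_cases hj : j = 0 <;> simp [hj, Prod.ext_iff]

/-- The sign of the two corners of an energy. -/
noncomputable def sj (j : Fin 2) : ℝ := if j = 0 then 1 else -1

theorem ep_ce (v : Site) (j : Fin 2) : ep (ce v j false) (ce v j true) = sj j := by
  unfold ep ce dir sj
  by_cases hj : j = 0 <;> simp [hj]

theorem sj_sq (j : Fin 2) : sj j * sj j = 1 := by unfold sj; split_ifs <;> norm_num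

section

variable {m : ℕ} (v : Fin m → Site) (j : Fin m → Fin 2)

/-- The corners of the labels. -/
def cl (x : Fin m × Bool) : Cn := ce (v x.1) (j x.1) x.2

/-- The labels. -/
def lb (s : List (Fin m)) : List (Fin m × Bool) := flat (fun k => (k, false)) (fun k => (k, true)) s

theorem lb_cons (k : Fin m) (s : List (Fin m)) : lb (k :: s) = (k, false) :: (k, true) :: lb s :=
  rfl

theorem mem_lb {s : List (Fin m)} {x : Fin m × Bool} (h : x ∈ lb s) : x.1 ∈ s := by
  induction s with
  | nil => simp [lb, flat] at h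
  | cons k s ih =>
    rw [lb_cons] at h
    simp only [List.mem_cons] at h ⊢
    rcases h with rfl | rfl | h
    exacts [Or.inl rfl, Or.inl rfl, Or.inr (ih h)]

theorem lb_nodup {s : List (Fin m)} (h : s.Nodup) : (lb s).Nodup := by
  induction s with
  | nil => simp [lb, flat]
  | cons k s ih =>
    rw [List.nodup_cons] at h
    rw [lb_cons, List.nodup_cons, List.nodup_cons, List.mem_cons]
    exact ⟨fun h' => h'.elim (by simp) fun h' => h.1 (mem_lb h'), fun h' => h.1 (mem_lb h'),
      ih h.2⟩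

theorem lb_even (s : List (Fin m)) : Even (lb s).length := by
  unfold lb
  rw [AL.flat_length]
  exact even_two_mul _

theorem lb_prod (g : Fin m × Bool → ℝ) (s : List (Fin m)) :
    ((lb s).map g).prod = (s.map fun k => g (k, false) * g (k, true)).prod := by
  induction s with
  | nil => rfl
  | cons k s ih => simp only [lb_cons, List.map_cons, List.prod_cons, ih, mul_assoc]

variable {v j}

theorem cl_inj (h : ∀ k l, k ≠ l → v k + dir (j k) ≠ v l + dir (j l)) :
    Function.Injective (cl v j) := by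
  rintro ⟨k, b⟩ ⟨l, b'⟩ e
  unfold cl ce at e
  obtain ⟨e1, e2⟩ := Prod.ext_iff.1 e
  have hkl : k = l := by
    by_contra hne
    exact h k l hne e1
  subst hkl
  cases b <;> cases b' <;> simp only [Bool.false_eq_true, if_true, if_false] at e2
  · rfl
  · exact absurd e2.symm (dir_ne _ _)
  · exact absurd e2 (dir_ne _ _)
  · rfl

theorem el_lb (h : ∀ k l, k ≠ l → v k + dir (j k) ≠ v l + dir (j l)) {s : List (Fin m)}
    (hs : s.Nodup) : el ((lb s).map (cl v j)) = (s.map fun k => sj (j k)).prod := by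
  induction s with
  | nil => rfl
  | cons k s ih =>
    rw [List.nodup_cons] at hs
    have e : (((lb s).map (cl v j)).map (ep (cl v j (k, false)))).prod *
        (((lb s).map (cl v j)).map (ep (cl v j (k, true)))).prod = 1 := by
      rw [← List.prod_map_mul, List.map_map, lb_prod]
      refine AL.list_prod_one _ _ fun l hl => ?_
      exact ep4 _ _ _ _ (h k l fun e => hs.1 (e ▸ hl))
    rw [lb_cons, List.map_cons, List.map_cons, el, el, List.map_cons, List.prod_cons, ih hs.2,
      List.map_cons, List.prod_cons, ← ep_ce (v k) (j k)]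
    unfold cl at e ⊢
    linear_combination (ep (ce (v k) (j k) false) (ce (v k) (j k) true) *
      (s.map fun k => sj (j k)).prod) * e

theorem QQ_lb (P : Finset Site) (R : Multiset Site) (s : List (Fin m)) :
    QQ P R (sps ((lb s).map (cl v j))) = QQ P R 0 := by
  induction s with
  | nil => rfl
  | cons k s ih =>
    rw [lb_cons, List.map_cons, List.map_cons, sps_cons, sps_cons, ← ih]
    exact W.QQ_spin_pair _ _ _ _

theorem fcs_lb (σ : Config) (s : List (Fin m)) :
    ((fcs ((lb s).map (cl v j))).map fun x => sp (σ x)).prod =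
      (s.map fun k => sp (σ (v k)) * sp (σ (v k + dir (j k)))).prod := by
  induction s with
  | nil => simp [lb, flat, fcs]
  | cons k s ih =>
    rw [lb_cons, List.map_cons, List.map_cons, fcs_cons, fcs_cons, Multiset.map_cons,
      Multiset.map_cons, Multiset.prod_cons, Multiset.prod_cons, ih, List.map_cons, List.prod_cons,
      mul_assoc]
    rfl

/-- The signs of the labels. -/
noncomputable def wl (j : Fin m → Fin 2) (x : Fin m × Bool) : ℝ := if x.2 then sj (j x.1) else 1

/-- The kernel with the signs of the energies. -/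
noncomputable def KK (P : Finset Site) (R : Multiset Site) (v : Fin m → Site) (j : Fin m → Fin 2)
    (x y : Fin m × Bool) : ℝ := wl j x * wl j y * Wf P R [cl v j x, cl v j y]

variable (hK : SKW) (hP : SPf) {J : ℝ} (hJ : 0 < J) {P : Finset Site} (hN : NC P)
  (h : ∀ k l, k ≠ l → v k + dir (j k) ≠ v l + dir (j l)) (hv : ∀ k, v k + dir (j k) ∈ P)

include hK hP hJ hN h hv

theorem base (R : Multiset Site) {s : List (Fin m)} (hs : s.Nodup) :
    pl J P (fun σ => (R.map fun x => sp (σ x)).prod *
      (s.map fun k => sp (σ (v k)) * sp (σ (v k + dir (j k)))).prod) =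
      sP J P R * Pf (KK P R v j) (lb s) := by
  have h1 := hP P hN R ((lb s).map (cl v j)) (fun c hc => by
    obtain ⟨x, -, rfl⟩ := List.mem_map.1 hc
    exact ⟨ce_cnr _ _ _, W.sub_Vx P (hv x.1)⟩) ((lb_nodup hs).map (cl_inj h))
    (by rw [List.length_map]; exact lb_even s)
  have h2 : pl J P (fun σ => (R.map fun x => sp (σ x)).prod *
      (s.map fun k => sp (σ (v k)) * sp (σ (v k + dir (j k)))).prod) =
      sP J P (fcs ((lb s).map (cl v j)) + R) := by
    unfold sP
    congr 1
    funext σ
    rw [Multiset.map_add, Multiset.prod_add, fcs_lb, mul_comm]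
  have h3 : ((lb s).map (wl j)).prod = (s.map fun k => sj (j k)).prod := by
    rw [lb_prod]
    simp [wl]
  unfold KK
  rw [AL.Pf_scale (fun x y => Wf P R [cl v j x, cl v j y]) (wl j) _ (lb_even s), h3,
    ← AL.Pf_map (fun c c' => Wf P R [c, c']) (cl v j), ← h1, h2, ← hK J hJ P hN, ← hK J hJ P hN]
  unfold Wf MM
  rw [el_lb h hs, QQ_lb]
  have h4 := AL.map_sq s (fun k => sj (j k)) fun k => sj_sq _
  have h5 := (W.QQ_pos P R).ne'
  have h6 := (W.QQ_pos P 0).ne'
  field_simp
  linear_combination (-QQ P (fcs ((lb s).map (cl v j)) + R) 0) * h4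

theorem mixed (R : Multiset Site) {s : List (Fin m)} (hs : s.Nodup) (t : Fin m → ℝ) :
    pl J P (fun σ => (R.map fun x => sp (σ x)).prod *
      (s.map fun k => sp (σ (v k)) * sp (σ (v k + dir (j k))) - t k).prod) =
      sP J P R * Pf (cenK (KK P R v j) (fun k => (k, false)) (fun k => (k, true)) t s) (lb s) := by
  have hM : sP J P R ≠ 0 := by
    rw [← hK J hJ P hN]
    exact (W.MM_pos P R).ne'
  have h1 := AL.cen_pf (L := fun F => pl J P F / sP J P R)
    (fun f g c => by
      show pl J P (fun σ => f σ - c * g σ) / _ = _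
      unfold pl gibbs P144.expect
      simp only [sub_mul, mul_assoc, Finset.sum_sub_distrib, ← Finset.mul_sum]
      ring)
    (fun k σ => sp (σ (v k)) * sp (σ (v k + dir (j k)))) t
    (fun σ => (R.map fun x => sp (σ x)).prod) (fun k => (k, false)) (fun k => (k, true))
    (KK P R v j) [] [] s (by simpa [lb] using lb_nodup hs) (fun s' hs' => by
      show pl J P _ / _ = _
      rw [base hK hP hJ hN h hv R (hs.sublist hs'), mul_div_cancel_left₀ _ hM]
      simp [lb])
  rw [div_eq_iff hM] at h1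
  rw [h1, mul_comm]
  simp [lb]

omit hP h hv in
theorem mean (x : Site) (i : Fin 2) : pl J P (fun σ => sp (σ x) * sp (σ (x + dir i))) =
    sj i * Wf P 0 [ce x i false, ce x i true] := by
  have h1 := hK J hJ P hN (x ::ₘ (x + dir i) ::ₘ 0)
  unfold sP at h1
  simp only [Multiset.map_cons, Multiset.prod_cons, Multiset.map_zero, Multiset.prod_zero,
    mul_one] at h1
  rw [← h1, W.Wf_two, ep_ce, ← mul_assoc, sj_sq, one_mul]
  unfold MM ce
  congr 1
  exact (W.QQ_spin_pair P _ 0 _).symm

end

theorem sub_lb {m : ℕ} {s : List (Fin m)} (hs : s.Nodup) {x y : Fin m × Bool}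
    (h : [x, y].Sublist (lb s)) : x.1 ≠ y.1 ∨ x.1 = y.1 ∧ x.2 = false ∧ y.2 = true := by
  induction s with
  | nil => simp [lb, flat] at h
  | cons k s ih =>
    rw [List.nodup_cons] at hs
    rw [lb_cons] at h
    have key : ∀ {b : Bool}, [y].Sublist (lb s) → ((k, b) : Fin m × Bool).1 ≠ y.1 :=
      fun h' e => hs.1 (by rw [show k = y.1 from e]; exact mem_lb (List.singleton_sublist.1 h'))
    rcases List.sublist_cons_iff.1 h with h | ⟨r, e, h⟩
    · rcases List.sublist_cons_iff.1 h with h | ⟨r, e, h⟩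
      · exact ih hs.2 h
      · obtain ⟨rfl, rfl⟩ := List.cons.inj e
        exact Or.inl (key h)
    · obtain ⟨rfl, rfl⟩ := List.cons.inj e
      rcases List.sublist_cons_iff.1 h with h | ⟨r, e, -⟩
      · exact Or.inl (key h)
      · obtain ⟨rfl, -⟩ := List.cons.inj e
        exact Or.inr ⟨rfl, rfl, rfl⟩

theorem asm (hK : SKW) (hP : SPf) : SAsmP := by
  intro J hJ D P hF hk hn p hp1
  have hp : Good0 D p := hp1.2
  obtain ⟨k3, k4⟩ := hk p hp
  have hx : Function.Injective p.x := fun i i' h => Sum.inl_injective (hp.2.2 (by simpa using h))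
  have hy : Function.Injective p.y := fun i i' h => Sum.inr_injective (hp.2.2 (by simpa using h))
  obtain ⟨g, -, hg⟩ := hn (univ.map ⟨p.x, hx⟩) fun z hz => by
    obtain ⟨i, -, rfl⟩ := mem_map.1 hz
    exact hp.1 i
  have hg := hg P hF
  set s := (univ : Finset (Fin p.m)).toList with hs
  have hsn : s.Nodup := nodup_toList _
  set t : ℝ → Fin p.m → ℝ := fun a k => sj (p.j k) * Wf (P a) 0 [cp p a k false, cp p a k true]
    with ht
  set Z : ℝ → Fin p.m × Bool → Fin p.m × Bool → ℝ := fun a =>
    cenK (KK (P a) (Rq p a) (fun k => fl a (p.y k)) p.j) (fun k => (k, false))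
      (fun k => (k, true)) (t a) s with hZ
  have hl : ∀ x y : Fin p.m × Bool, ∃ c : ℝ, [x, y].Sublist (lb s) →
      Tendsto (fun a => Z a x y / a) (𝓝[>] 0) (𝓝 c) := by
    rintro ⟨k, b⟩ ⟨l, b'⟩
    by_cases hkl : k = l
    · subst hkl
      obtain ⟨c, hc⟩ := k4 k
      refine ⟨sj (p.j k) * c, fun h => ?_⟩
      obtain ⟨-, rfl, rfl⟩ := (sub_lb hsn h).resolve_left (by simp)
      refine (hc.const_mul _).congr fun a => ?_
      simp only [hZ, cenK, hs, sum_map_toList, Prod.mk.injEq, and_true, and_self, sum_ite_eq,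
        mem_univ, if_true, KK, wl, ht, cl, cp, Bool.false_eq_true, if_false]
      ring
    · obtain ⟨c, hc⟩ := k3 k l hkl b b'
      refine ⟨wl p.j (k, b) * wl p.j (l, b') * c, fun _ => (hc.const_mul _).congr fun a => ?_⟩
      simp only [hZ, cenK, KK, cl, cp]
      rw [List.sum_eq_zero fun z hz => ?_]
      · ring
      obtain ⟨q, -, rfl⟩ := List.mem_map.1 hz
      refine if_neg fun h => hkl ?_
      exact (Prod.ext_iff.1 h.1).1.trans (Prod.ext_iff.1 h.2).1.symm
  choose L hL using hl
  refine ⟨_, (hg.mul (AL.Pf_tendsto (fun a x y => Z a x y / a) L (lb s) hL)).congr' ?_⟩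
  have e1 : ∀ᶠ a in 𝓝[>] (0 : ℝ), ∀ k l, k ≠ l →
      fl a (p.y k) + dir (p.j k) ≠ fl a (p.y l) + dir (p.j l) := by
    refine eventually_all.2 fun k => eventually_all.2 fun l => ?_
    by_cases hkl : k = l
    · simp [hkl]
    · filter_upwards [H170.ev_ne_add AL.idt (AL.flt (p.y k)) (AL.flt (p.y l))
        (fun h => hkl (hy h)) (dir (p.j l) - dir (p.j k))] with a ha _ e
      exact ha (by rw [← add_sub_assoc, ← e, add_sub_cancel_right])
  have e2 : ∀ᶠ a in 𝓝[>] (0 : ℝ), ∀ k, fl a (p.y k) + dir (p.j k) ∈ P a := by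
    refine eventually_all.2 fun k => ?_
    filter_upwards [hF.1.deep AL.idt (hp.2.1 k) (AL.flt _) 1] with a ha
    refine ha _ ?_ ?_ <;> unfold dir <;> split_ifs <;> simp
  filter_upwards [e1, e2, hF.2, self_mem_nhdsWithin] with a h1 h2 h3 h4
  have ha : 0 < a := h4
  have e3 : (fun x y => Z a x y / a) = fun x y => (√a)⁻¹ * (√a)⁻¹ * Z a x y := by
    funext x y
    rw [← mul_inv, Real.mul_self_sqrt ha.le, div_eq_inv_mul]
  have e4 : ((lb s).map fun _ => (√a)⁻¹).prod = a⁻¹ ^ p.m := by
    rw [lb_prod, ← mul_inv, Real.mul_self_sqrt ha.le, hs, prod_map_toList]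
    simp
  have e5 : (univ.map ⟨p.x, hx⟩ : Finset ℂ).val.map (fl a) = Rq p a := by
    unfold Rq rM
    rw [map_val, Multiset.map_map]
    rfl
  have e6 : a ^ (-((univ.map ⟨p.x, hx⟩ : Finset ℂ).card : ℝ) / 8) =
      (a ^ (-(1 / 8) : ℝ)) ^ p.n := by
    rw [← Real.rpow_natCast, ← Real.rpow_mul ha.le, card_map, card_univ, Fintype.card_fin]
    congr 1
    ring
  rw [e3, AL.Pf_scale _ (fun _ => (√a)⁻¹) _ (lb_even s), e4]
  unfold corr GP
  simp only [mean hK hJ h3]
  have e7 : (fun σ : Config => (∏ i, a ^ (-(1 / 8) : ℝ) * sp (σ (fl a (p.x i)))) *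
      ∏ k, a⁻¹ * (sp (σ (fl a (p.y k))) * sp (σ (fl a (p.y k) + dir (p.j k))) -
        sj (p.j k) * Wf (P a) 0 [ce (fl a (p.y k)) (p.j k) false,
          ce (fl a (p.y k)) (p.j k) true])) =
      fun σ => ((a ^ (-(1 / 8) : ℝ)) ^ p.n * a⁻¹ ^ p.m) *
        (((Rq p a).map fun x => sp (σ x)).prod * (s.map fun k => sp (σ (fl a (p.y k))) *
          sp (σ (fl a (p.y k) + dir (p.j k))) - t a k).prod) := by
    funext σ
    have e : ((Rq p a).map fun x => sp (σ x)).prod = ∏ i, sp (σ (fl a (p.x i))) := by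
      unfold Rq rM
      rw [Multiset.map_map]
      rfl
    rw [e, prod_mul_distrib, prod_mul_distrib, prod_const, prod_const, card_univ, card_univ,
      Fintype.card_fin, Fintype.card_fin, hs, prod_map_toList]
    simp only [ht, cp]
    ring
  rw [e7, e5, e6]
  unfold pl
  rw [B.gibbs_cmul]
  have e8 := mixed hK hP hJ h3 h1 h2 (Rq p a) hsn (t a)
  unfold pl at e8
  rw [e8]
  ring

end Vale.Agent.P144S.F
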