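import Vale.Agent.P144S.Defs
import Vale.Agent.P144Q.U.All

/-!
The limits for the plus and minus boundary conditions from the blocks.
-/

namespace Vale.Agent.P144S.F

open Filter Topology Metric Vale.Agent.P144 Vale.Agent.P144Q

/-- The reversal of all spins. -/
def rev (σ : Config) : Config := fun x => !σ x

theorem sp_not (b : Bool) : sp (!b) = -sp b := by cases b <;> simp [sp]

theorem energy_rev (J : ℝ) (P : Finset Site → Prop) (σ : Config) :
    energy J 0 (fun _ => 0) P (rev σ) = energy J 0 (fun _ => 0) P σ := by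
  unfold energy
  congr 1
  refine finsum_congr fun A => finsum_congr fun _ => ?_
  by_cases h : IsEdge A
  · obtain ⟨u, v, huv, rfl⟩ := h
    have hne : u ≠ v := by
      rintro rfl
      simp [dsq] at huv
    rw [Finset.prod_pair hne, Finset.prod_pair hne]
    unfold rev
    rw [sp_not, sp_not]
    ring
  · simp [h]

theorem ext_rev (Λ T : Finset Site) :
    ext Λ (fun _ => false) (Λ \ T) = rev (ext Λ (fun _ => true) T) := by
  funext x
  unfold ext rev
  by_cases h : x ∈ Λ <;> simp [h]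

theorem sum_compl (Λ : Finset Site) (f : Finset Site → ℝ) :
    ∑ T ∈ Λ.powerset, f T = ∑ T ∈ Λ.powerset, f (Λ \ T) := by
  refine Finset.sum_nbij' (fun T => Λ \ T) (fun T => Λ \ T) ?_ ?_ ?_ ?_ ?_
  · intro T _; simp
  · intro T _; simp
  · intro T hT; exact Finset.sdiff_sdiff_eq_self (Finset.mem_powerset.1 hT)
  · intro T hT; exact Finset.sdiff_sdiff_eq_self (Finset.mem_powerset.1 hT)
  · intro T hT; rw [Finset.sdiff_sdiff_eq_self (Finset.mem_powerset.1 hT)]

theorem gibbs_rev (J β : ℝ) (Λ : Finset Site) (F : Config → ℝ) :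
    gibbs J 0 (fun _ => 0) β (some fun _ => false) Λ F =
      gibbs J 0 (fun _ => 0) β (some fun _ => true) Λ fun σ => F (rev σ) := by
  unfold gibbs P144.expect
  dsimp only
  rw [sum_compl Λ, sum_compl Λ fun T => Real.exp _]
  simp only [ext_rev, energy_rev]

theorem corr_rev (J β a : ℝ) (Λ : Finset Site) (p : Pts) :
    corr a (gibbs J 0 (fun _ => 0) β (some fun _ => false) Λ) p =
      (-1) ^ p.n * corr a (gibbs J 0 (fun _ => 0) β (some fun _ => true) Λ) p := by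
  unfold corr
  simp only [gibbs_rev]
  rw [← B.gibbs_cmul]
  congr 1
  funext σ
  simp only [rev, sp_not, mul_neg, neg_mul, neg_neg, Finset.prod_neg, Finset.card_univ,
    Fintype.card_fin]
  ring

theorem allLim_minus {J : ℝ} {D : Set ℂ} (h : AllLim D (crit J D (some fun _ _ => true))) :
    AllLim D (crit J D (some fun _ _ => false)) := fun p hp => by
  obtain ⟨c, hc⟩ := h p hp
  refine ⟨(-1) ^ p.n * c, (Tendsto.const_mul _ hc).congr fun a => ?_⟩
  exact (corr_rev J _ a (disc D a) p).symm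

theorem allLim_div {J R : ℝ} (hR : 0 < R) {D : Set ℂ}
    (h : AllLim ((fun z => z / (R : ℂ)) '' D)
      (crit J ((fun z => z / (R : ℂ)) '' D) (some fun _ _ => true))) :
    AllLim D (crit J D (some fun _ _ => true)) := fun p hp => by
  obtain ⟨c, hc⟩ := h _ (B.good_shr hR hp)
  refine ⟨((R ^ (-(1 / 8) : ℝ)) ^ p.n * R⁻¹ ^ p.m) * c,
    ((Tendsto.comp hc (B.div_lim hR)).const_mul _).congr' ?_⟩
  filter_upwards [self_mem_nhdsWithin] with a ha
  have e : crit J ((fun z => z / (R : ℂ)) '' D) (some fun _ _ => true) (a / R) =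
      crit J D (some fun _ _ => true) a := by
    unfold crit inDom
    rw [B.disc_div hR]
    rfl
  simp only [Function.comp, e]
  exact (B.corr_shr (E := crit J D (some fun _ _ => true) a)
    (B.gibbs_cmul J 0 (fun _ => 0) (Kc / J) (some fun _ => true) (disc D a)) p ha hR).symm

theorem GP_eq (hK : SKW) (hB : SBlk) {J : ℝ} (hJ : 0 < J) {D : Set ℂ} {P : ℝ → Finset Site}
    (hP : FamB D P) (X : Finset ℂ) :
    Gn (fun a => Vx (P a)) X =ᶠ[𝓝[>] 0] GP J P X := by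
  filter_upwards [hP.1.2] with a ha
  unfold Gn GP Mn
  rw [← hK J hJ _ ha]
  unfold MM H436.MM
  rw [(hB _ (hP.2.1 a)).1, (hB _ (hP.2.1 a)).1]

/-- The normalisation. -/
theorem normX (hK : SKW) (hB : SBlk) (hAll : SAll) (hR : SRatO) (h1 : SOne) (hOdd : SOdd)
    {J : ℝ} (hJ : 0 < J) (Ω Ω' : Dom) (h : Ω'.D = H436.rc '' Ω.D) (ho : Out Ω.D)
    (hP : ∃ P, FamP Ω.D P) (X : Finset ℂ) (hX : ∀ z ∈ X, z ∈ Ω.D) : NormX J Ω.D X := by
  have hr : ∀ P, FamB Ω.D P → RatioO Ω.D (fun a => Vx (P a)) ∧ NormE Ω.D fun a => Vx (P a) :=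
    fun P hP => ⟨hR Ω Ω' h _ hP.2.2, E.norm _ _ Ω.op Ω.small hP.2.2
      fun X X' h1 h2 h3 _ => hR Ω Ω' h _ hP.2.2 X X' h1 h2 h3⟩
  refine hAll J hJ _ X Ω.op Ω.small ho hX hP fun P hP' => ?_
  rcases Nat.even_or_odd X.card with he | he
  · obtain ⟨g, hg, hl⟩ := (hr P hP').2 X hX he
    exact ⟨g, hg, hl.congr' (GP_eq hK hB hJ hP' X)⟩
  · refine hOdd J hJ _ P Ω.op Ω.small hP' (hr P hP').1 (hr P hP').2 (fun z hz => ?_) X hX he
    exact hAll J hJ _ {z} Ω.op Ω.small ho (by simpa using hz) hP fun Q hQ =>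
      h1 J hJ _ Q Ω.op Ω.small hQ (hr Q hQ).1 (hr Q hQ).2 z hz

/-- **The result from the blocks.** -/
theorem fin (hK : SKW) (hB : SBlk) (hAll : SAll) (hR : SRatO) (h1 : SOne) (hOdd : SOdd)
    (hD : SDomP) (hL : SLatP) (hO : SOut) (h34 : SK34P) (hA : SAsmP)
    (l3 : ∀ D, Lip4 D → L.Lip3 D)
    (ld : ∀ (R : ℝ) D, 0 < R → Lip4 D → Lip4 ((fun z => z / (R : ℂ)) '' D)) : SFinP := by
  intro J hJ D hl hs
  suffices h : AllLim D (crit J D (some fun _ _ => true)) from ⟨h, allLim_minus h⟩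
  obtain ⟨t, R0, hsm⟩ := U.exists_small hl.2.1
  refine allLim_div R0 ?_
  have h' := ld t D R0 hl
  have hs' := U.sc_div R0 hs
  generalize (fun z => z / (t : ℂ)) '' D = D' at hsm h' hs'
  have h3 := l3 _ h'
  obtain ⟨Ω, rfl⟩ := hD D' h3 hs' hsm
  obtain ⟨Ω', hΩ'⟩ := U.dom3 (U.lip3_rc h3) (U.sc_rc hs') (U.small_rc hsm)
  obtain ⟨c, -⟩ := R.map3 h3 hs'
  have hF := hL _ h' ⟨c⟩
  exact hA J hJ _ _ hF (h34 Ω _ hF)
    (normX hK hB hAll hR h1 hOdd hJ Ω.toDom Ω' hΩ' (hO _ h3 ⟨c⟩) ⟨_, hF⟩)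

end Vale.Agent.P144S.F
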